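import Vale.Agent.P207.N4.Dim
import Vale.Agent.P207.C1.Conseq
import Vale.Agent.P207.N3.H465.Mt
import Vale.Agent.P207.N4.H728.Had

/-!
# P207, line N3, R2/R5: the universal cover is a space of curvature `≤ -k²` in the sense of `Had`
-/

open Set Filter Topology
open scoped unitInterval

noncomputable section

set_option linter.unusedSectionVars false

namespace Vale.Agent.P207.N4.H465

open Vale.Agent.P207.N3 Vale.Agent.P207.N3.H465

variable [Dim]

open Vale.Agent.P255 (ExpSys)
open Vale.Agent.P207.C1 (HC)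

variable {E M : Type} [NormedAddCommGroup E] [NormedSpace ℝ E] [FiniteDimensional ℝ E]
  [TopologicalSpace M]

section

variable (S : ExpSys E M) (p : M)

theorem len_ray_symm_trans (q w x : E) :
    S.len ((Path.Homotopic.Quotient.mk (S.rayTo (S.e p q) (S.e (S.e p q) w) w rfl)).symm.trans
      (cl S p q x)) = dd S p (ex S p q w) x := by
  have key : ∀ z (hz : S.e (S.e p q) w = z), z = S.e p (ex S p q w) →
      S.len ((Path.Homotopic.Quotient.mk (S.rayTo (S.e p q) z w hz)).symm.trans
        (cl S p q x)) = dd S p (ex S p q w) x := by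
    intro z hz h
    subst h
    rw [← cl_ex, cl_symm_trans, ← dd_eq_len]
  exact key _ rfl (e_ex S p q w).symm

/-- the comparison inequality of curvature `≤ -k²` -/
theorem dd_cat {k : ℝ} (hS : HC S k) (hk : 0 < k) (q : E) {u : E} (hu : S.nrm (S.e p q) u = 1)
    (x : E) {s L : ℝ} (hs : 0 ≤ s) (hsL : s ≤ L) :
    Real.sinh (k * L) * Real.cosh (k * dd S p x (ex S p q (s • u))) ≤
      Real.sinh (k * (L - s)) * Real.cosh (k * dd S p x q) +
        Real.sinh (k * s) * Real.cosh (k * dd S p x (ex S p q (L • u))) := by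
  rcases hs.eq_or_lt with h0 | h0
  · subst h0
    rw [zero_smul, ex_zero, sub_zero, mul_zero, Real.sinh_zero, zero_mul, add_zero]
  rcases hsL.eq_or_lt with h1 | h1
  · subst h1
    rw [sub_self, mul_zero, Real.sinh_zero, zero_mul, zero_add]
  have hL : 0 < L := h0.trans h1
  set β := cl S p q (ex S p q (L • u)) with hβ
  have hlen : S.len β = L := by
    rw [hβ, ← dd_eq_len, dd_ex, nrm_smul, hu, mul_one, abs_of_pos hL]
  have hvec : S.vec β = L • u := by rw [hβ, vec_cl, lg_ex]
  have ht0 : 0 < s / L := div_pos h0 hL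
  have ht1 : s / L < 1 := (div_lt_one hL).2 h1
  have key := C1.stewart hS hk β ht0 ht1 (by rw [hlen]; exact hL) (cl S p q x)
  have e1 : S.len ((G1.part S β (s / L)).symm.trans (cl S p q x)) =
      dd S p (ex S p q (s • u)) x := by
    have h2 := len_ray_symm_trans S p q ((s / L) • S.vec β) x
    have h3 : (s / L) • S.vec β = s • u := by
      rw [hvec, smul_smul, div_mul_cancel₀ _ hL.ne']
    rw [h3] at h2
    have h4 : ∀ w : E, (s / L) • S.vec β = w →
        S.len ((G1.part S β (s / L)).symm.trans (cl S p q x)) =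
        S.len ((Path.Homotopic.Quotient.mk (S.rayTo (S.e p q) (S.e (S.e p q) w) w rfl)).symm.trans
          (cl S p q x)) := by
      rintro w rfl
      rfl
    rw [h4 _ h3, h2]
  have e2 : S.len (β.symm.trans (cl S p q x)) = dd S p (ex S p q (L • u)) x := by
    rw [hβ, cl_symm_trans, ← dd_eq_len]
  rw [e1, e2, hlen, ← dd_eq_len] at key
  have e3 : (1 - s / L) * L = L - s := by field_simp
  have e4 : s / L * L = s := div_mul_cancel₀ _ hL.ne'
  rw [e3, e4] at key
  rw [dd_comm S p x, dd_comm S p x, dd_comm S p x]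
  exact key

/-- the universal cover is a Hadamard space of curvature `≤ -k²` -/
def had [Nontrivial E] {k : ℝ} (hS : HC S k) (hk : 0 < k) : H728.Had (Mt S p) where
  a := k
  a_pos := hk
  line := exists_line S p
  nonbranch c c' hc hc' T hT h0 h1 := nonbranch S p hc hc' hT h0 h1
  cat c hc x s L hs hsL := by
    obtain ⟨u, hu, hcu⟩ := isometry_eq S p hc
    have h := dd_cat S p hS hk (ofMt S p (c 0)) hu (ofMt S p x) hs hsL
    rw [hcu s, hcu L]
    exact h

end

end Vale.Agent.P207.N4.H465
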