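import Vale.Agent.P207.N4.Dim
import Vale.Agent.P207.N3.H465.XMet

/-!
# P207, line N4: the metric of the space of frames

The file of the line N3 does not depend on the dimension; it is used as it is.
-/
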