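import Vale.Agent.P207.N4.Dim
import Vale.Agent.P207.N4.H465.XMet
import Vale.Agent.P207.N4.H566.ExpD
import Vale.Agent.P207.N4.H863.Lip

/-!
# P207, line N3, R2: local Lipschitz sections of `Fr g` and of `X`

* `lipSec_frSys : LipSec (frSys g).dif`.
* `lipSec_difX : LipSec (difX g ((sys g h).e p))` for the metric of `Xt g h p`.
* `exists_local_norm_le_dd`: `‖q - q'‖ ≤ C * dd q q'` and conversely, near a point.
-/

open scoped Manifold ContDiff ENNReal Topology NNReal
open Bundle MeasureTheory Set Filter Topology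

noncomputable section

set_option maxSynthPendingDepth 3
set_option linter.unusedSectionVars false

namespace Vale.Agent.P207.N4.H465

open Vale.Agent.P207.N3 Vale.Agent.P207.N3.H465

variable [Dim]

open Vale.Agent.P207.Q Vale.Agent.P207.Q.Fl
open Vale.Agent.P207.N4.H566 Vale.Agent.P207.N3.H566 Vale.Agent.P207.N4.H863 Vale.Agent.P207.N3.H863
open Vale.Agent.P255 (RMetric coefIn Gam Riem IsGeo Metric Npc ExpSys toMetric geo expg cc trans IsGeodesic coefL chris chrisB IsMetricOn covD)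

variable {n : ℕ} {M : Type} [TopologicalSpace M] [ChartedSpace (EV n) M]
  [IsManifold 𝓘(ℝ, EV n) ∞ M] [CompactSpace M] [T2Space M]

section Fr

variable [NeZero n] (g : RMetric (EV n) M) [Nonempty (Fr g)]

/-- the frame bundle has Lipschitz local sections -/
theorem lipSec_frSys : LipSec (frSys g).dif := by
  intro f
  have hf : f.pt ∈ (chartAt (EV n) f.pt).source := mem_chart_source _ _
  obtain ⟨C, -, hC⟩ := exists_chart_bound f.pt hf
  refine ⟨St (Fin n) n, inferInstance, inferInstance, inferInstance, fun q => chF f.pt q.1,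
    fun z => invF g f.pt (gsSt ((mt g).coef f.pt) z), ⟨at_retr f.pt (mem_gsDom_chF f.pt f hf), ?_⟩,
    C, hC⟩
  filter_upwards [((chartAt (EV n) f.pt).open_source.preimage Fr.continuous_pt).mem_nhds hf]
    with q hq
  exact ⟨continuousAt_chF' f.pt hq, retr_chF f.pt q hq⟩

end Fr

section X

variable [NeZero n] {g : RMetric (EV n) M} [Nonempty (Fr g)] (h : Npc (mt g)) (p : M)

open Classical in
/-- the local section of `X` over a local section `σ` of the covering -/
def secY (e : EV n → M) (σ : M → EV n) (x₀ : PB e (Fr.pt (g := g))) (y : St (Fin n) n) :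
    PB e (Fr.pt (g := g)) :=
  if hy : e (σ (invF g x₀.f.pt (gsSt ((mt g).coef x₀.f.pt) y)).pt) =
      (invF g x₀.f.pt (gsSt ((mt g).coef x₀.f.pt) y)).pt then PB.mk _ _ hy else x₀

/-- `X` has Lipschitz local sections -/
theorem lipSec_difX : LipSec (difX g ((sys g h).e p)) := by
  intro x₀
  set a : M := x₀.f.pt with ha
  have ha0 : x₀.f.pt ∈ (chartAt (EV n) a).source := mem_chart_source _ _
  obtain ⟨C, hC0, hC⟩ := exists_chart_bound (g := g) a ha0
  have cov : IsCoveringMap ((sys g h).e p) := (sys g h).cov p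
  obtain ⟨φ, hφ, hφe⟩ := cov.isLocalHomeomorph x₀.q
  have hφe' : ∀ x, φ x = (sys g h).e p x := fun x => (congrFun hφe x).symm
  -- the point over `a`
  have hpt : φ x₀.q = x₀.f.pt := (hφe' _).trans x₀.e_q
  have hat : x₀.f.pt ∈ φ.target := by
    rw [← hpt]
    exact φ.map_source hφ
  let R : St (Fin n) n → Fr g := fun z => invF g a (gsSt ((mt g).coef a) z)
  have hR : (frSys g).dif.At R (chF a x₀.f.1) := at_retr a (mem_gsDom_chF a x₀.f ha0)
  have hRc : ∀ᶠ z in 𝓝 (chF a x₀.f.1), ContinuousAt R z := by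
    filter_upwards [(frSys g).dif.open' hR] with z hz
    exact (frSys g).at_cont hz
  have hR0 : R (chF a x₀.f.1) = x₀.f := retr_chF a x₀.f ha0
  have hev : ∀ᶠ z in 𝓝 (chF a x₀.f.1), (R z).pt ∈ φ.target := by
    have h1 : ContinuousAt (fun z => (R z).pt) (chF a x₀.f.1) :=
      ContinuousAt.comp (g := fun f : Fr g => f.pt) Fr.continuous_pt.continuousAt
        hRc.self_of_nhds
    have h2 : (R (chF a x₀.f.1)).pt = x₀.f.pt := congrArg (fun f : Fr g => f.pt) hR0
    have h3 : (R (chF a x₀.f.1)).pt ∈ φ.target := by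
      rw [h2]
      exact hat
    exact h1.eventually (φ.open_target.mem_nhds h3)
  have hsec : ∀ z, (R z).pt ∈ φ.target → (sys g h).e p (φ.symm (R z).pt) = (R z).pt :=
    fun z hz => by rw [← hφe', φ.right_inv hz]
  have hsecY : ∀ z, (hz : (R z).pt ∈ φ.target) →
      secY ((sys g h).e p) φ.symm x₀ z = PB.mk (φ.symm (R z).pt) (R z) (hsec z hz) :=
    fun z hz => dif_pos (hsec z hz)
  refine ⟨St (Fin n) n, inferInstance, inferInstance, inferInstance, fun x => chF a x.f.1,
    secY ((sys g h).e p) φ.symm x₀, ⟨?_, ?_⟩, C, ?_⟩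
  · refine difX_of (locDif_e h p) ?_ ?_
    · filter_upwards [hev.eventually_nhds, hRc] with z hz hzc
      have h1 : ContinuousAt (fun z => φ.symm (R z).pt) z := by
        refine ContinuousAt.comp (g := φ.symm) (φ.continuousAt_symm hz.self_of_nhds) ?_
        exact ContinuousAt.comp (g := fun f : Fr g => f.pt) Fr.continuous_pt.continuousAt hzc
      refine h1.congr ?_
      filter_upwards [hz] with w hw
      rw [hsecY w hw]
      rfl
    · refine (frSys g).dif.congr hR ?_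
      filter_upwards [hev] with z hz
      rw [hsecY z hz]
      rfl
  · have h1 : ∀ᶠ x : XF g ((sys g h).e p) in 𝓝 x₀, x.f.pt ∈ (chartAt (EV n) a).source :=
      (Fr.continuous_pt.comp PB.continuous_f).continuousAt.eventually
        ((chartAt (EV n) a).open_source.mem_nhds ha0)
    have h2 : ∀ᶠ x : XF g ((sys g h).e p) in 𝓝 x₀, x.q ∈ φ.source :=
      PB.continuous_q.continuousAt.eventually (φ.open_source.mem_nhds hφ)
    filter_upwards [h1, h2] with x hx hxs
    refine ⟨?_, ?_⟩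
    · exact ContinuousAt.comp (g := fun f : Fr g => chF a f.1) (f := fun x : XF g _ => x.f)
        (continuousAt_chF' a hx) PB.continuous_f.continuousAt
    · have hRx : R (chF a x.f.1) = x.f := retr_chF a x.f hx
      have hxpt : x.f.pt = φ x.q := (x.e_q.symm).trans (hφe' _).symm
      have hxt : (R (chF a x.f.1)).pt ∈ φ.target := by
        rw [hRx, hxpt]
        exact φ.map_source hxs
      rw [hsecY _ hxt]
      refine PB.ext ?_ hRx
      rw [PB.q_mk, hRx, hxpt]
      exact φ.left_inv hxs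
  · have h1 : Tendsto (fun z : XF g ((sys g h).e p) × XF g ((sys g h).e p) => (z.1.f, z.2.f))
        (𝓝 (x₀, x₀)) (𝓝 (x₀.f, x₀.f)) :=
      ((PB.continuous_f.comp continuous_fst).prodMk
        (PB.continuous_f.comp continuous_snd)).continuousAt
    filter_upwards [h1.eventually hC] with z hz
    exact hz.trans (mul_le_mul_of_nonneg_left (PB.dist_f_le z.1 z.2) hC0.le)

/-- the norm of `EV n` and the distance are locally comparable -/
theorem exists_local_norm_le_dd (q₀ : EV n) : ∃ C : ℝ, 0 < C ∧ ∀ᶠ z in 𝓝 (q₀, q₀),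
    ‖z.1 - z.2‖ ≤ C * dd (sys g h) p z.1 z.2 ∧ dd (sys g h) p z.1 z.2 ≤ C * ‖z.1 - z.2‖ := by
  obtain ⟨C₁, hC₁, H₁⟩ := exists_norm_le_dd h p
  obtain ⟨C₂, hC₂, H₂⟩ := exists_local_dd_le h p q₀
  set m₀ := expg (mt g) p q₀ with hm₀
  have hs : expg (mt g) p q₀ ∈ (chartAt (EV n) m₀).source := mem_chart_source _ _
  obtain ⟨L, hL⟩ := (locDif_expg h p).inv m₀ q₀ hs
  have hst : HasStrictFDerivAt (fun z => chartAt (EV n) m₀ (expg (mt g) p z))
      (L : EV n →L[ℝ] EV n) q₀ :=
    ((locDif_expg h p).smooth m₀ q₀ hs).hasStrictFDerivAt' hL (by simp)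
  have hu0 : chartAt (EV n) m₀ (expg (mt g) p q₀) ∈ (chartAt (EV n) m₀).target :=
    (chartAt (EV n) m₀).map_source hs
  have hst2 : HasStrictFDerivAt ((chEmb n M).c m₀)
      (fderiv ℝ ((chEmb n M).c m₀) (chartAt (EV n) m₀ (expg (mt g) p q₀)))
      ((fun z => chartAt (EV n) m₀ (expg (mt g) p z)) q₀) :=
    ((chEmb n M).contDiffAt_c hu0).hasStrictFDerivAt (by simp)
  have hst3 := hst2.comp q₀ hst
  have hinj : Function.Injective ((fderiv ℝ ((chEmb n M).c m₀)
      (chartAt (EV n) m₀ (expg (mt g) p q₀))).comp (L : EV n →L[ℝ] EV n)) :=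
    ((chEmb n M).imm m₀ _ hu0).comp L.injective
  obtain ⟨K₁, hK₁, h1⟩ := exists_lip hst3
  obtain ⟨K₂, hK₂, h2⟩ := exists_antilip hst3 hinj
  have hev : ∀ᶠ z in 𝓝 q₀, (chEmb n M).c m₀ (chartAt (EV n) m₀ (expg (mt g) p z)) =
      emM (n := n) (expg (mt g) p z) := by
    filter_upwards [(P255.continuous_expg (mt g) p).continuousAt.eventually
      ((chartAt (EV n) m₀).open_source.mem_nhds hs)] with z hz
    exact (chEmb n M).c_chart m₀ hz
  have hev2 : ∀ᶠ z in 𝓝 (q₀, q₀), (chEmb n M).c m₀ (chartAt (EV n) m₀ (expg (mt g) p z.1)) =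
      emM (n := n) (expg (mt g) p z.1) ∧
      (chEmb n M).c m₀ (chartAt (EV n) m₀ (expg (mt g) p z.2)) =
      emM (n := n) (expg (mt g) p z.2) := by
    rw [nhds_prod_eq]
    exact hev.prod_mk hev
  refine ⟨max (K₂ * C₁) (C₂ * K₁), lt_max_of_lt_left (by positivity), ?_⟩
  filter_upwards [h1, h2, H₂, hev2] with z a1 a2 a3 a4
  have b1 : ‖(chEmb n M).c m₀ (chartAt (EV n) m₀ (expg (mt g) p z.1)) -
      (chEmb n M).c m₀ (chartAt (EV n) m₀ (expg (mt g) p z.2))‖ ≤ K₁ * ‖z.1 - z.2‖ := a1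
  have b2 : ‖z.1 - z.2‖ ≤ K₂ * ‖(chEmb n M).c m₀ (chartAt (EV n) m₀ (expg (mt g) p z.1)) -
      (chEmb n M).c m₀ (chartAt (EV n) m₀ (expg (mt g) p z.2))‖ := a2
  rw [a4.1, a4.2] at b1 b2
  constructor
  · calc ‖z.1 - z.2‖ ≤ K₂ * ‖emM (n := n) (expg (mt g) p z.1) - emM (expg (mt g) p z.2)‖ := b2
      _ ≤ K₂ * (C₁ * dd (sys g h) p z.1 z.2) :=
        mul_le_mul_of_nonneg_left (H₁ _ _) hK₂.le
      _ = K₂ * C₁ * dd (sys g h) p z.1 z.2 := by ring
      _ ≤ _ := mul_le_mul_of_nonneg_right (le_max_left _ _) (dd_nonneg _ _ _ _)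
  · calc dd (sys g h) p z.1 z.2
        ≤ C₂ * ‖emM (n := n) (expg (mt g) p z.1) - emM (expg (mt g) p z.2)‖ := a3
      _ ≤ C₂ * (K₁ * ‖z.1 - z.2‖) := mul_le_mul_of_nonneg_left b1 hC₂.le
      _ = C₂ * K₁ * ‖z.1 - z.2‖ := by ring
      _ ≤ _ := mul_le_mul_of_nonneg_right (le_max_right _ _) (norm_nonneg _)

/-- the norm of `EV n` and the distance are comparable on compact sets -/
theorem exists_norm_le_dd_of_isCompact {K : Set (EV n)} (hK : IsCompact K) :
    ∃ C : ℝ, 0 < C ∧ ∀ q ∈ K, ∀ q' ∈ K, ‖q - q'‖ ≤ C * dd (sys g h) p q q' := by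
  let F : Mt (sys g h) p → EV n := ofMt (sys g h) p
  have hK' : IsCompact (F ⁻¹' K) := hK
  obtain ⟨C, hC, H⟩ := H863.lip_of_local hK' (F := F) fun q _ => by
    obtain ⟨C, hC, H⟩ := exists_local_norm_le_dd h p (ofMt (sys g h) p q)
    refine ⟨C, ?_⟩
    have h1 : Tendsto (fun z : Mt (sys g h) p × Mt (sys g h) p => (F z.1, F z.2))
        (𝓝 (q, q)) (𝓝 (F q, F q)) :=
      ((continuous_ofMt (sys g h) p).comp continuous_fst).prodMk
        ((continuous_ofMt (sys g h) p).comp continuous_snd) |>.continuousAt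
    filter_upwards [h1.eventually H] with z hz
    exact hz.1
  refine ⟨C + 1, by positivity, fun q hq q' hq' => ?_⟩
  have h1 : ‖q - q'‖ ≤ C * dd (sys g h) p q q' := H q hq q' hq'
  have h2 := dd_nonneg (sys g h) p q q'
  rw [add_mul]
  linarith

/-- on compact sets `x ↦ x.q` is Lipschitz for the norm of `EV n` -/
theorem Xt.exists_norm_q_le {K : Set (Xt g h p)} (hK : IsCompact K) :
    ∃ C : ℝ, 0 < C ∧ ∀ x ∈ K, ∀ y ∈ K, ‖x.q - y.q‖ ≤ C * dist x y := by
  obtain ⟨C, hC, H⟩ := exists_norm_le_dd_of_isCompact h p (hK.image PB.continuous_q)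
  refine ⟨C, hC, fun x hx y hy => ?_⟩
  exact (H _ (mem_image_of_mem _ hx) _ (mem_image_of_mem _ hy)).trans
    (mul_le_mul_of_nonneg_left (PB.dd_le x y) hC.le)

end X

end Vale.Agent.P207.N4.H465
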